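import Vale.Agent.P355.H909U.TD0
import Vale.Agent.P355.H909U.TD1
import Vale.Agent.P355.H909U.TD2
import Vale.Agent.P355.H909U.TD3
import Vale.Agent.P355.H909U.TD4
import Vale.Agent.P355.H909U.TD5
import Vale.Agent.P355.H909U.TD6
import Vale.Agent.P355.H909U.TD7
import Vale.Agent.P355.H909U.TD8
import Vale.Agent.P355.H909U.TD9
import Vale.Agent.P355.H909U.TD10
import Vale.Agent.P355.H909U.TD11
import Vale.Agent.P355.H909U.TD12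
import Vale.Agent.P355.H909U.TD13
import Vale.Agent.P355.H909U.TD14
import Vale.Agent.P355.H909U.TD15
import Vale.Agent.P355.H909U.TD16
import Vale.Agent.P355.H909U.TD17
import Vale.Agent.P355.H909U.TD18
import Vale.Agent.P355.H909U.TD19
import Vale.Agent.P355.H909U.TD20
import Vale.Agent.P355.H909U.TD21
import Vale.Agent.P355.H909U.TD22
import Vale.Agent.P355.H909U.TD23
import Vale.Agent.P355.H909U.TD24
import Vale.Agent.P355.H909U.TD25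
import Vale.Agent.P355.H909U.TD26

namespace Vale.Agent.P355.H909U

open Vale.Agent.P355 Vale.Agent.P355.H129V
open Vale.Agent.P355.H387 (CT evL Cls)
open Vale.Agent.P355.H637 (CV)
open Vale.Agent.P355.H909V (SG U4)

def T : List RT := T0 ++ (T1 ++ (T2 ++ (T3 ++ (T4 ++ (T5 ++ (T6 ++ (T7 ++ (T8 ++ (T9 ++ (T10 ++ (T11 ++ (T12 ++ (T13 ++ (T14 ++ (T15 ++ (T16 ++ (T17 ++ (T18 ++ (T19 ++ (T20 ++ (T21 ++ (T22 ++ (T23 ++ (T24 ++ (T25 ++ (T26 ++ (T27 ++ (T28 ++ (T29 ++ (T30 ++ (T31 ++ (T32 ++ (T33 ++ (T34 ++ (T35 ++ (T36 ++ (T37 ++ (T38 ++ (T39 ++ (T40 ++ (T41 ++ (T42 ++ (T43 ++ (T44 ++ (T45 ++ (T46 ++ (T47 ++ (T48 ++ (T49 ++ (T50 ++ (T51 ++ (T52 ++ (T53 ++ (T54 ++ (T55 ++ (T56 ++ (T57 ++ (T58 ++ (T59 ++ (T60 ++ (T61 ++ (T62 ++ (T63 ++ (T64 ++ (T65 ++ (T66 ++ (T67 ++ (T68 ++ (T69 ++ (T70 ++ (T71 ++ (T72 ++ (T73 ++ (T74 ++ (T75 ++ (T76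 ++ (T77 ++ (T78 ++ (T79 ++ (T80 ++ (T81 ++ (T82 ++ (T83 ++ (T84 ++ (T85 ++ (T86 ++ (T87 ++ (T88 ++ (T89 ++ (T90 ++ (T91 ++ (T92 ++ (T93 ++ (T94 ++ (T95 ++ (T96 ++ (T97 ++ (T98 ++ (T99 ++ (T100 ++ (T101 ++ (T102 ++ (T103 ++ (T104 ++ (T105 ++ (T106 ++ (T107 ++ (T108 ++ (T109 ++ (T110 ++ (T111 ++ (T112 ++ (T113 ++ (T114 ++ (T115 ++ (T116 ++ (T117 ++ (T118 ++ (T119 ++ (T120 ++ (T121 ++ (T122 ++ (T123 ++ (T124 ++ (T125 ++ (T126 ++ (T127 ++ (T128 ++ (T129 ++ (T130 ++ (T131 ++ (T132 ++ (T133 ++ (T134 ++ (T135 ++ (T136 ++ (T137 ++ (T138 ++ (T139 ++ (T140 ++ (T141 ++ (T142 ++ (T143 ++ (T144 ++ (T145 ++ (T146 ++ (T147 ++ (T148 ++ (T149 ++ (T150 ++ (T151 ++ (T152 ++ (T153 ++ (T154 ++ (T155 ++ (T156 ++ (T157 ++ (T158 ++ (T159 ++ (T160 ++ (T161 ++ (T162 ++ (T163 ++ (T164 ++ (T165 ++ (T166 ++ (T167 ++ (T168 ++ (T169 ++ (T170 ++ (T171 ++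 (T172 ++ (T173 ++ (T174 ++ (T175 ++ (T176 ++ (T177 ++ (T178 ++ (T179 ++ (T180 ++ (T181 ++ (T182 ++ (T183 ++ (T184 ++ (T185 ++ (T186 ++ (T187 ++ (T188 ++ (T189 ++ (T190 ++ (T191 ++ (T192 ++ (T193 ++ (T194 ++ (T195 ++ (T196 ++ (T197 ++ (T198 ++ (T199 ++ (T200 ++ (T201 ++ (T202 ++ (T203 ++ (T204 ++ (T205)))))))))))))))))))))))))))))))))))))))))))))))))))))))))))))))))))))))))))))))))))))))))))))))))))))))))))))))))))))))))))))))))))))))))))))))))))))))))))))))))))))))))))))))))))))))))))))))))))))))))))))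

end Vale.Agent.P355.H909U
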